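import Vale.Agent.P002N97.St
import Vale.Agent.P002G14.Main

/-!
# P002N97: the sequence of Nori
-/

open scoped Manifold ContDiff Topology
open Set Filter Topology Bundle

namespace Vale.Agent.P002N

open Vale.Agent.P002D Vale.Agent.P002E Vale.Agent.P002B14 Vale.Agent.P002Z Vale.Agent.P002G
  FundamentalGroup

open Vale.Agent.P002.H252 in
theorem nori {G H : Type} [Group G] [Group H] [Group.FG G] (u : G →* H)
    (hu : Function.Surjective u) {k : ℕ} {Q : Fin k → Type} [∀ i, Group (Q i)]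
    {g n : Fin k → ℕ} {m : ∀ i, Fin (n i) → ℕ} {δ : ∀ i, G0 (g i) (n i) → Q i}
    (hδ : ∀ i, IsOrb (g i) (n i) (m i) (Q i) (δ i)) (φ : ∀ i, G →* Q i)
    (hr : ∀ i, (φ i).range.FiniteIndex) (hK : ImSolv u φ) {P S : Set G} (h1 : S ⊆ u.ker)
    (h2 : u.ker ≤ Subgroup.normalClosure S)
    (hP : ∀ γ ∈ P ∪ S, ∀ i, φ i γ = 1 ∨ ∃ (l : Fin (n i)) (h : Q i) (a : ℤ),
      φ i γ = h * δ i (Sum.inr l) ^ a * h⁻¹) : P002F.Dens H (u '' P) := by
  let Φ : G →* H × ∀ i, Q i := u.prod (MonoidHom.pi φ)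
  let ρ : G →* Φ.range := Φ.rangeRestrict
  have hρ : Function.Surjective ρ := Φ.rangeRestrict_surjective
  let u' : Φ.range →* H := (MonoidHom.fst _ _).comp Φ.range.subtype
  let φ' : ∀ i, Φ.range →* Q i := fun i =>
    (Pi.evalMonoidHom Q i).comp ((MonoidHom.snd _ _).comp Φ.range.subtype)
  have : Group.FG Φ.range := Group.fg_of_surjective hρ
  have hr' : ∀ i, (φ' i).range.FiniteIndex := fun i =>
    haveI := hr i
    Subgroup.finiteIndex_of_le (H := (φ i).range) fun _ ⟨a, ha⟩ => ⟨ρ a, ha⟩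
  have hK' : VirtSolv ↥(⨅ i, (φ' i).ker) := by
    have hm : ∀ x : ↥(⨅ i, (φ' i).ker), (u'.comp (Subgroup.subtype _)) x ∈
        (⨅ i, (φ i).ker).map u := fun ⟨x, hx⟩ => by
      obtain ⟨a, rfl⟩ := hρ x
      exact ⟨a, Subgroup.mem_iInf.2 fun i => Subgroup.mem_iInf.1 hx i, rfl⟩
    refine VirtSolv.of_inj ((u'.comp (Subgroup.subtype _)).codRestrict _ hm)
      ((injective_iff_map_eq_one _).2 fun x hx => Subtype.ext (Subtype.ext (Prod.ext
        (congrArg Subtype.val hx) (funext fun i => Subgroup.mem_iInf.1 x.2 i)))) hK.1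
  have hd : P002F.Dens _ (ρ '' (P ∪ S)) := by
    refine fun ι _ R θ r => ⟨fun _ _ => P002A.represents θ, q1_of _ (fun ι _ R θ r s w C hw hC =>
      dense_of_family hδ φ' hr' hK' R θ r s w C (fun j i => ?_) hC) ι R θ r⟩
    obtain ⟨γ, hγ, e⟩ := hw j
    rw [← e]
    exact hP γ hγ i
  have h3 := quo u' (fun y => (hu y).elim fun a ha => ⟨ρ a, ha⟩)
    (image_mono (f := ρ) subset_union_right) (by rintro _ ⟨a, ha, rfl⟩; exact h1 ha) (by
      intro x hx
      obtain ⟨a, rfl⟩ := hρ x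
      exact Subgroup.map_normalClosure S ρ hρ ▸ Subgroup.mem_map_of_mem ρ (h2 hx)) hd
  intro ι _ R θ r
  exact ⟨(h3 ι R θ r).1, (h3 ι R θ r).2.1, fun s γ C hγ =>
    (h3 ι R θ r).2.2 s γ C fun j => by
      obtain ⟨a, ha, e⟩ := hγ j
      exact ⟨ρ a, ⟨a, Or.inl ha, rfl⟩, e⟩⟩

variable {k : ℕ} {S : Fin k → Type} [∀ i, TopologicalSpace (S i)] [∀ i, T2Space (S i)]
  [∀ i, CompactSpace (S i)] [∀ i, ConnectedSpace (S i)] [∀ i, ChartedSpace ℂ (S i)]
  [∀ i, IsManifold 𝓘(ℂ) 1 (S i)] (D : ∀ i, Set (S i)) (hD : ∀ i, (D i).Finite)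

include hD

theorem thin_nori {T : Type} [TopologicalSpace T] {E E' : Set T} (h : E'ᶜ ⊆ Eᶜ) (hT : Thin E E') (f : ∀ i, C(↥E'ᶜ, ↥(D i)ᶜ))
    (hf : ∀ p ∉ E, ∀ i, ExtendsAt (f i) p) [PathConnectedSpace ↥E'ᶜ] (x₀ : ↥E'ᶜ)
    [Group.FG (FundamentalGroup ↥E'ᶜ x₀)] (hr : ∀ i, (map (f i) x₀).range.FiniteIndex)
    (hK : KerIm (ContinuousMap.inclusion h) f x₀) :
    PathConnectedSpace ↥Eᶜ ∧ Group.FG (FundamentalGroup ↥Eᶜ (ContinuousMap.inclusion h x₀)) ∧
      P002F.Dens _ (map (ContinuousMap.inclusion h) x₀ ''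
        {γ | ∃ p ∈ E, (∀ i, ExtendsAt (f i) p) ∧ IsDiscLoop E' x₀ p γ}) := by
  have hX := (hT.th h).pc
  have hp : ∀ i, PathConnectedSpace ↥(D i)ᶜ := RS.cpc D hD
  choose g n m δ hδ hper using fun i => haveI := RS.cpc D hD i; curve_isOrb (hD i) (f i x₀)
  choose O hO hO' using fun i => shr (hD i) (f i x₀)
  have hV : ∀ x : ↥Eᶜ, ∃ V ∈ 𝓝 x, ∀ y : ↥E'ᶜ, ContinuousMap.inclusion h y ∈ V →
      ∀ i, (f i y : S i) ∈ O i (hf x x.2 i).choose := fun x => by
    have h1 : ∀ᶠ y : ↥E'ᶜ in comap Subtype.val (𝓝 (x : T)),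
        ∀ i, (f i y : S i) ∈ O i (hf x x.2 i).choose :=
      eventually_all.2 fun i => (hf x x.2 i).choose_spec (hO i _)
    obtain ⟨V, hV, h2⟩ := mem_comap.1 h1
    exact ⟨Subtype.val ⁻¹' V, continuous_subtype_val.continuousAt hV, fun y hy => h2 hy⟩
  choose V hV hV' using hV
  obtain ⟨hs, S, s1, s2, s3⟩ := fill (hT.th h) x₀ V hV
  refine ⟨hX, Group.fg_of_surjective hs, ?_⟩
  refine nori _ hs hδ (fun i => map (f i) x₀) hr hK s2 s3 fun γ hγ i => ?_
  rcases hγ with ⟨p, -, h1, h2⟩ | h1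
  · rcases image_loop (f i) (h1 i) h2 with h | ⟨q, hq, h⟩
    · exact Or.inl h
    · exact Or.inr (hper i q hq _ h)
  · obtain ⟨x, y, σ, c, hc, e⟩ := s1 _ h1
    rw [e, map_conjLoop]
    exact (hO' i _ _ _ (c.map (f i).continuous) fun t => hV' x _ (hc t) i).imp id
      fun h => hper i _ h.1 _ h.2

theorem singularN : SingularN D := by
  rintro T _ E E' h x₀ f hT hf (hF | ⟨hX, hF | ⟨_, h2⟩⟩)
  · exact singular D hD T E E' h x₀ f hT hf (Or.inl hF)
  · exact singular D hD T E E' h x₀ f hT hf (Or.inr ⟨hX, Or.inl hF⟩)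
  have e : discs (E ∩ good f) E' x₀ =
      {γ | ∃ p ∈ E, (∀ i, ExtendsAt (f i) p) ∧ IsDiscLoop E' x₀ p γ} :=
    Set.ext fun γ => exists_congr fun p => and_assoc
  have key := thin_nori D hD h hT f hf x₀ h2.2 h2
  rw [e]
  exact ⟨key.1, key.2.1, q1r fun ι _ R θ r => (key.2.2 ι R θ r).2⟩

theorem onto {X : Type} [TopologicalSpace X] (f : ∀ i, C(X, ↥(D i)ᶜ)) (x : X) {F : Type}
    [TopologicalSpace F] [PathConnectedSpace F] (y : F)
    (hb : ∀ b, ∃ e : Trivialization F (ContinuousMap.pi f), b ∈ e.baseSet)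
    (h1 : Group.FG (FundamentalGroup F y)) : PathConnectedSpace X ∧
      Group.FG (FundamentalGroup X x) ∧ ∀ i, (map (f i) x).range.FiniteIndex := by
  have : ∀ i, PathConnectedSpace ↥(D i)ᶜ := RS.cpc D hD
  have hX : PathConnectedSpace X := P002B14.pc (ContinuousMap.pi f) hb
  obtain ⟨h3, j, h4⟩ := P002B14.over f (lsc_pi ℂ D fun i => (hD i).isClosed) hb x y
  have := fun i => RS.fg_curve D hD i (f i x)
  refine ⟨hX, fg_ext _ h3 j fun a ha => h4 (Subgroup.mem_iInf.2 fun i => congrFun ha i),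
    fun i => ?_⟩
  have : (map (f i) x).range = ⊤ := MonoidHom.range_eq_top.2 fun a => by
    obtain ⟨b, hb⟩ := h3 (Pi.mulSingle i a)
    exact ⟨b, (congrFun hb i).trans (Pi.mulSingle_eq_same
      (M := fun i => FundamentalGroup ↥(D i)ᶜ (f i x)) i a)⟩
  rw [this]
  infer_instance

theorem holoN : HoloN D := by
  classical
  rintro d X _ _ _ _ _ f E _ h x₀ g' ⟨_, hR⟩ hon rfl hg' ⟨h1, h2⟩ hE
  have := fun i => om (S i)
  have hc : ∀ i, Continuous (f i) := fun i => (f i).continuous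
  have hf : ∀ i, ContMDiff 𝓘(ℂ, Fin (k + d) → ℂ) 𝓘(ℂ) ω (f i) := fun i x =>
    contMDiffAt_iff.2 ⟨(hc i).continuousAt,
      ((analyticAt_pi_iff.1 (hR x).1 i).contDiffAt (n := ω)).contDiffWithinAt⟩
  have hs : ∀ x ∉ {x | ∃ i, f i x ∈ D i}, ∀ w : Fin k → ℂ, ∃ v, ∀ i,
      mfderiv 𝓘(ℂ, Fin (k + d) → ℂ) 𝓘(ℂ) (f i) x v = w i := fun x hx w => by
    obtain ⟨v, hv⟩ := (hR x).2 hx w
    refine ⟨v, fun i => ?_⟩
    rw [((hf i x).mdifferentiableAt (by simp)).mfderiv, modelWithCornersSelf_coe, range_id,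
      fderivWithin_univ, ← hv]
    exact DFunLike.congr_fun (fderiv_apply (hR x).1.differentiableAt i) v
  have ev : ∀ i x, ∀ᶠ y in 𝓝 x, f i y ∈ D i → f i y = f i x := fun i x => by
    filter_upwards [(hc i).continuousAt.eventually (eventually_nhdsWithin_iff.1
      (eventually_notMem_of_finite (hD i) (f i x)))] with y a b
    by_contra c
    exact a c b
  have eE : {x | ∃ i, f i x ∈ D i}ᶜ = ⋂ i, (f i ⁻¹' D i)ᶜ := by
    ext; simp
  have ho : ∀ i, IsOpen (f i ⁻¹' D i)ᶜ := fun i => ((hD i).isClosed.preimage (hc i)).isOpen_compl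
  have hE' : IsClosed {x | ∃ i, f i x ∈ D i} :=
    ⟨eE ▸ isOpen_iInter_of_finite ho⟩
  have hd : Dense {x | ∃ i, f i x ∈ D i}ᶜ := by
    rw [eE]
    refine dense_iInter_of_isOpen ho fun i => interior_eq_empty_iff_dense_compl.1
      (eq_empty_of_forall_notMem fun y hy => x₀.2 ⟨i, ?_⟩)
    rw [ident (hf i) (q := f i y) (y := y) (by
      filter_upwards [mem_interior_iff_mem_nhds.1 hy, ev i y] with z a b using b a)]
    exact interior_subset (s := f i ⁻¹' D i) hy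
  have hT : Thin E {x | ∃ i, f i x ∈ D i} := thin_an (V := Fin (k + d) → ℂ) hE hE' fun x _ => by
    set φ := chartAt (Fin (k + d) → ℂ) x
    have hxφ : x ∈ φ.source := mem_chart_source _ x
    refine ⟨fun u => ∏ i, if f i x ∈ D i then
      chartAt ℂ (f i x) (f i (φ.symm u)) - chartAt ℂ (f i x) (f i x) else 1,
      Finset.analyticAt_fun_prod _ fun i _ => ?_, fun hg => ?_, ?_⟩
    · split_ifs
      exacts [(lc (hf i) (mem_chart_source ℂ _)).analyticAt.sub analyticAt_const,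
        analyticAt_const]
    · obtain ⟨y, a, b, c, e⟩ := ((mem_closure_iff_frequently.1 (hd x)).and_eventually
        (((φ.continuousAt hxφ).eventually hg).and ((φ.open_source.eventually_mem hxφ).and
          (eventually_all.2 fun i => (hc i).continuousAt.eventually
            (chart_source_mem_nhds ℂ (f i x)))))).exists
      obtain ⟨i, -, hi⟩ := Finset.prod_eq_zero_iff.1 b
      split_ifs at hi with hm
      · rw [φ.left_inv c, sub_eq_zero] at hi
        exact a ⟨i, (chartAt ℂ (f i x)).injOn (e i) (mem_chart_source ℂ _) hi ▸ hm⟩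
      · exact one_ne_zero hi
    · filter_upwards [φ.open_source.eventually_mem hxφ, eventually_all.2 fun i => ev i x]
        with y a b ⟨i, hi⟩
      exact Finset.prod_eq_zero (Finset.mem_univ i) (by
        rw [if_pos (b i hi ▸ hi), φ.left_inv a, b i hi, sub_self])
  let g : ∀ i, C(↥{x | ∃ i, f i x ∈ D i}ᶜ, ↥(D i)ᶜ) := fun i =>
    ⟨fun z => ⟨f i z, fun h => z.2 ⟨i, h⟩⟩, ((hc i).comp continuous_subtype_val).subtype_mk _⟩
  have hg : ∀ p, p ∈ good g := fun p i => ⟨f i p, (hc i).continuousAt.tendsto.comp tendsto_comap⟩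
  have hp := pcs D hD
  have hκ : IsEmbedding (fun (b : ∀ i, ↥(D i)ᶜ) i => (b i).1) :=
    IsEmbedding.piMap fun i => IsEmbedding.subtypeVal
  have hb : ∀ b : ∀ i, ↥(D i)ᶜ, ∃ e : Trivialization ↥{y | (f · y) = fun i => (b i).1}
      (ContinuousMap.pi g), b ∈ e.baseSet := fun b => by
    obtain ⟨m, hm⟩ := hon fun i => (b i).1
    replace hm : ∀ i, f i m = (b i).1 := congrFun hm
    obtain ⟨W, r, Φ, w1, w2, w3, w4, w5, w6, w7⟩ := ehr (p := k) (d := d) (f := fun y i => f i y)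
      (continuous_pi hc) (OpenPartialHomeomorph.pi fun i => chartAt ℂ (b i).1)
      (U := univ.pi fun i => (D i)ᶜ) (isOpen_set_pi finite_univ fun i _ =>
        (hD i).isClosed.isOpen_compl) (a := fun i => (b i).1) (fun i _ => (b i).2)
      (fun i _ => mem_chart_source ℂ _) (fun x a c => by
        refine prodChart (continuous_pi hc) a
          (contDiffAt_pi.2 fun i => lc (hf i) (a i trivial)) ?_
        have key := (hasFDerivAt_pi.2 fun i =>
          hasMFDerivAt_iff_hasFDerivAt.1 (der (hf i) (a i trivial))).fderiv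
        intro w
        choose s e1 using fun i => (mdifferentiable_chart (I := 𝓘(ℂ)) (b i).1).mfderiv_surjective
          (a i trivial) (w i)
        obtain ⟨v, e2⟩ := hs x (fun ⟨i, hi⟩ => c i trivial hi) s
        obtain ⟨u, e3⟩ := (mdifferentiable_chart (I := 𝓘(ℂ, Fin (k + d) → ℂ))
          x).symm.mfderiv_surjective (mem_chart_target _ x) v
        refine ⟨u, (DFunLike.congr_fun key u).trans (funext fun i => ?_)⟩
        exact (congrArg _ ((congrArg _ e3).trans (e2 i))).trans (e1 i)) (funext hm)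
    obtain ⟨e, he⟩ := mkTriv hκ (ContinuousMap.pi g).continuous (fun _ => rfl) w2
      (fun x hx ⟨i, hi⟩ => w1 hx i trivial hi) w4 w5 w6 w7 ⟨m, funext hm⟩ x₀
    exact ⟨e, he ▸ w3⟩
  obtain rfl : g' = g := funext fun i => ContinuousMap.ext fun z => Subtype.ext (hg' i z)
  have hb' := common _ hb (ContinuousMap.pi g x₀)
  obtain ⟨h3, h4⟩ := h2 ⟨x₀.1, rfl⟩
  have := singularN D hD X E _ h x₀ g hT (fun p _ => hg p) (h4.elim
    (fun h4 => Or.inl ⟨_, _, ⟨x₀.1, rfl⟩, h1, hb', h3, h4⟩) fun h4 => by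
      obtain ⟨a, b, c⟩ := @onto _ _ _ _ _ _ _ _ D hD _ _ g x₀ _ _ h1 ⟨x₀.1, rfl⟩ hb' h3
      exact Or.inr ⟨a, Or.inr ⟨b, h4⟩⟩)
  rwa [show E ∩ good g = E from inter_eq_left.2 fun p _ => hg p] at this

end Vale.Agent.P002N
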