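import Vale.Agent.P002G14.St

/-!
# P002: only the image of the group of the fibre matters
-/

namespace Vale.Agent.P002N

open Vale.Agent.P002D Vale.Agent.P002E Vale.Agent.P002G

variable {k : ℕ}

/-- The image under `j` of the common kernel of the `φ i` is virtually solvable, and the images of
the `φ i` have finite index. -/
def ImSolv {G' G : Type} [Group G'] [Group G] {H : Fin k → Type} [∀ i, Group (H i)]
    (j : G' →* G) (φ : ∀ i, G' →* H i) : Prop :=
  VirtSolv ↥((⨅ i, (φ i).ker).map j) ∧ ∀ i, (φ i).range.FiniteIndex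

variable {X' X : Type} [TopologicalSpace X'] [TopologicalSpace X] {Y : Fin k → Type}
  [∀ i, TopologicalSpace (Y i)] (j : C(X', X)) (f : ∀ i, C(X', Y i)) (x : X')

/-- The same for the homomorphisms of fundamental groups induced by continuous maps. -/
def KerIm : Prop := ImSolv (FundamentalGroup.map j x) fun i => FundamentalGroup.map (f i) x

/-- `X' → ∏ Y i` is a bundle as in `IsBundle`, or `X'` is path connected and the map is a finite
covering, or `π_1(X')` is finitely generated, its images in the `π_1(Y i)` have finite index and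
the common kernel has virtually solvable image in `π_1(X)`. -/
def FamilyN : Prop :=
  IsBundle f ∨ PathConnectedSpace X' ∧
    (IsCoveringMap (ContinuousMap.pi f) ∧ {y | ∀ i, f i y = f i x}.Finite ∨
      Group.FG (FundamentalGroup X' x) ∧ KerIm j f x)

/-- `F` is path connected with finitely generated `π_1`, virtually solvable unless `p` holds. -/
def SolvN (F : Set X) (p : Prop) : Prop :=
  PathConnectedSpace F ∧
    ∀ y : F, Group.FG (FundamentalGroup F y) ∧ (VirtSolv (FundamentalGroup F y) ∨ p)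

variable {S : Fin k → Type} [∀ i, TopologicalSpace (S i)] (D : ∀ i, Set (S i))

/-- Spaces `T ∖ E` which are families over `∏ (S i ∖ D i)` outside a thin set `E'`. -/
def SingularN : Prop :=
  ∀ (T : Type) [TopologicalSpace T] (E E' : Set T) (h : E'ᶜ ⊆ Eᶜ) (x₀ : ↥E'ᶜ)
    (f : ∀ i, C(↥E'ᶜ, ↥(D i)ᶜ)), P002B14.Thin E E' → Eᶜ ⊆ good f →
    FamilyN (ContinuousMap.inclusion h) f x₀ →
    PathConnectedSpace ↥Eᶜ ∧ Group.FG (FundamentalGroup ↥Eᶜ (ContinuousMap.inclusion h x₀)) ∧
      Q1R (push (ContinuousMap.inclusion h) x₀ (discs (E ∩ good f) E' x₀))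

/-- Compact connected complex manifolds `X` with a holomorphic map onto `∏ S i` which is a
submersion outside `E' = ⋃ (f i)⁻¹ (D i)`, with restrictions `g i`; the boundary is any closed
`E ⊆ E'`. -/
def HoloN [∀ i, ChartedSpace ℂ (S i)] : Prop :=
  ∀ (d : ℕ) (X : Type) [TopologicalSpace X] [T2Space X] [CompactSpace X] [ConnectedSpace X]
    [ChartedSpace (Fin (k + d) → ℂ) X] (f : ∀ i, C(X, S i)) (E E' : Set X) (h : E'ᶜ ⊆ Eᶜ)
    (x₀ : ↥E'ᶜ) (g : ∀ i, C(↥E'ᶜ, ↥(D i)ᶜ)), Hol (Fin (k + d) → ℂ) f E' →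
    Function.Surjective (ContinuousMap.pi f) → E' = {x | ∃ i, f i x ∈ D i} →
    (∀ i z, (g i z).1 = f i z) →
    SolvN {y | (f · y) = (f · x₀)} (KerIm (ContinuousMap.inclusion h) g x₀) → IsClosed E →
    PathConnectedSpace ↥Eᶜ ∧ Group.FG (FundamentalGroup ↥Eᶜ (ContinuousMap.inclusion h x₀)) ∧
      Q1R (push (ContinuousMap.inclusion h) x₀ (discs E E' x₀))

end Vale.Agent.P002N
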